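import Mathlib
import Crest.Agent.N255.Kc.Defs
import Crest.Agent.N255.Ce.Ord
import Crest.Agent.N255.Mo.Col
import Crest.Agent.N255.Ce.Fr
import Crest.Agent.N255.Da.Glob
import Crest.Agent.N255.Da.Lk
import Crest.Agent.N255.Ch.Main

-- ▼ part N255/Kc/Pi
section

/-!
# Row 255 (helper16): homotopy groups of the base of a covering
-/

set_option autoImplicit false
open Set Topology unitInterval

noncomputable section

namespace Crest.Agent.N255.Kc

variable {E X : Type} [TopologicalSpace E] [TopologicalSpace X] {p : E → X}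

/-- a map from a cube lifts -/
theorem cube_lift (hp : IsCoveringMap p) (hs : Function.Surjective p) {n : ℕ}
    (f : C(Fin n → I, X)) : ∃ F : C(Fin n → I, E), ∀ y, p (F y) = f y := by
  obtain ⟨e, he⟩ := hs (f fun _ => 0)
  have hc : Continuous fun q : I × (Fin n → I) => fun i => q.1 * q.2 i :=
    continuous_pi fun i => Continuous.subtype_mk (by fun_prop) _
  let H : C(I × (Fin n → I), X) := f.comp ⟨_, hc⟩
  have h0 : ∀ a, H (0, a) = p (ContinuousMap.const (Fin n → I) e a) := fun a => by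
    simp [H, he]
  refine ⟨(hp.liftHomotopy H _ h0).comp ⟨fun y => (1, y), by fun_prop⟩, fun y => ?_⟩
  have := congrFun (hp.liftHomotopy_lifts H _ h0) (1, y)
  simpa [H] using this

theorem pi_base (hp : IsCoveringMap p) (hs : Function.Surjective p) {n : ℕ} (hn : 2 ≤ n)
    (h : ∀ e : E, Subsingleton (HomotopyGroup (Fin n) E e)) (x : X) :
    Subsingleton (HomotopyGroup (Fin n) X x) := by
  have key : ∀ f : GenLoop (Fin n) X x, GenLoop.Homotopic f GenLoop.const := by
    intro f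
    obtain ⟨F, hF⟩ := cube_lift hp hs f.1
    have face : ∀ (i : Fin n) (t : I), t = 0 ∨ t = 1 → ∀ y z : Fin n → I, y i = t → z i = t →
        F y = F z := by
      intro i t ht y z hy hz
      have hb : ∀ w : Fin n → I, p (F (Function.update w i t)) = x := fun w => by
        rw [hF]
        exact f.2 _ ⟨i, by simpa using ht⟩
      have := hp.const_of_comp (g := fun w : Fin n → I => F (Function.update w i t))
        (F.continuous.comp (continuous_id.update i continuous_const))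
        (fun a a' => (hb a).trans (hb a').symm) y z
      rwa [← hy, Function.update_eq_self, hy, ← hz, Function.update_eq_self] at this
    have : Nontrivial (Fin n) := Fin.nontrivial_iff_two_le.2 hn
    have hb : ∀ y ∈ Cube.boundary (Fin n), F y = F fun _ => 0 := by
      rintro y ⟨i, hi⟩
      obtain ⟨j, hj⟩ := exists_ne i
      rw [face i (y i) hi y (Function.update (fun _ => 0) i (y i)) rfl (by simp)]
      exact face j 0 (Or.inl rfl) _ _ (by simp [hj]) rfl
    have hx : p (F fun _ => 0) = x := by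
      rw [hF]
      exact f.2 _ ⟨⟨0, by omega⟩, Or.inl rfl⟩
    let F' : GenLoop (Fin n) E (F fun _ => 0) := ⟨F, hb⟩
    have h1 : GenLoop.Homotopic F' GenLoop.const :=
      Quotient.exact ((h _).elim (Quotient.mk _ F') (Quotient.mk _ GenLoop.const))
    have h2 := ContinuousMap.HomotopicRel.comp_continuousMap h1 ⟨p, hp.continuous⟩
    have e1 : (⟨p, hp.continuous⟩ : C(E, X)).comp F'.1 = f.1 := ContinuousMap.ext hF
    have e2 : (⟨p, hp.continuous⟩ : C(E, X)).comp (GenLoop.const : GenLoop (Fin n) E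
      (F fun _ => 0)).1 = (GenLoop.const : GenLoop (Fin n) X x).1 := ContinuousMap.ext fun _ => hx
    rw [e1, e2] at h2
    exact h2
  refine ⟨fun a b => ?_⟩
  induction a using Quotient.inductionOn with | _ f => ?_
  induction b using Quotient.inductionOn with | _ g => ?_
  exact Quotient.sound ((key f).trans (key g).symm)

end Crest.Agent.N255.Kc

end
end

-- ▼ part N255/Kc/Cov
section

/-!
# Row 255 (helper16): the finite complex `K` of chains modulo `G` and the covering `Re P → K`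
-/

set_option autoImplicit false
open Set Function Topology

noncomputable section

namespace Crest.Agent.N255.Kc

open Crest.Agent.N255.Mo
open scoped Classical

variable {G P : Type} [Group G] [PartialOrder P] [MulAction G P]
  [CovariantClass G P (· • ·) (· ≤ ·)] {N : ℕ}

/-- the standard basis -/
def ev (i : Fin N) : EuclideanSpace ℝ (Fin N) := EuclideanSpace.single i 1

theorem li_ev : LinearIndependent ℝ (ev (N := N)) := by
  have e : ev (N := N) = (EuclideanSpace.basisFun (Fin N) ℝ).toBasis := by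
    ext1 i
    simp [ev]
  exact e ▸ (EuclideanSpace.basisFun (Fin N) ℝ).toBasis.linearIndependent

/-- the complex of chains, labelled by `cl` -/
def cx (cl : P → Fin N) : Geometry.SimplicialComplex ℝ (EuclideanSpace ℝ (Fin N)) :=
  Geometry.SimplicialComplex.ofAffineIndependent
    ⟨{s | ∃ t : Finset P, t.Nonempty ∧ IsChain (· ≤ ·) (t : Set P) ∧ s = t.image (ev ∘ cl)}, by
      rintro _ ⟨t, hn, ht, rfl⟩
      refine ⟨hn.image _, fun b hb hb' => ?_⟩
      obtain ⟨u, hu, rfl⟩ := Finset.subset_image_iff.1 hb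
      exact ⟨u, hb'.of_image, ht.mono hu, rfl⟩⟩
    (li_ev.affineIndependent.range.mono fun x hx => by
      simp only [mem_iUnion, Finset.mem_coe] at hx
      obtain ⟨_, ⟨t, -, -, rfl⟩, hx⟩ := hx
      obtain ⟨a, -, rfl⟩ := Finset.mem_image.1 hx
      exact ⟨_, rfl⟩)

theorem mem_cx {cl : P → Fin N} {s : Finset (EuclideanSpace ℝ (Fin N))} : s ∈ (cx cl).faces ↔
    ∃ t : Finset P, t.Nonempty ∧ IsChain (· ≤ ·) (t : Set P) ∧ s = t.image (ev ∘ cl) := Iff.rfl

theorem fin_cx (cl : P → Fin N) : (cx cl).faces.Finite :=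
  (Finset.univ.image ev).powerset.finite_toSet.subset fun s hs => by
    obtain ⟨t, -, -, rfl⟩ := mem_cx.1 hs
    refine Finset.mem_powerset.2 fun x hx => ?_
    obtain ⟨a, -, rfl⟩ := Finset.mem_image.1 hx
    exact Finset.mem_image_of_mem _ (Finset.mem_univ _)

/-- the projection -/
def q0 (cl : P → Fin N) (μ : Re P) : EuclideanSpace ℝ (Fin N) := ∑ a ∈ sp μ, μ.1 a • ev (cl a)

theorem q0_eq (cl : P → Fin N) {μ : Re P} {t : Finset P} (ht : support μ.1 ⊆ t) :
    q0 cl μ = ∑ a ∈ t, μ.1 a • ev (cl a) :=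
  Finset.sum_subset (fun _ ha => ht (mem_sp.1 ha)) fun a _ ha => by
    rw [not_not.1 (mem_sp.not.1 ha), zero_smul]

theorem q0_apply (cl : P → Fin N) (μ : Re P) (i : Fin N) :
    q0 cl μ i = ∑ a ∈ sp μ, if cl a = i then μ.1 a else 0 := by
  simp [q0, ev, Pi.single_apply, eq_comm]

theorem q0_mem (cl : P → Fin N) (μ : Re P) : q0 cl μ ∈ (cx cl).space :=
  Geometry.SimplicialComplex.mem_space_iff.2 ⟨_, mem_cx.2 ⟨sp μ, sp_nonempty μ, chain_sp μ, rfl⟩,
    (convex_convexHull ℝ _).sum_mem (fun a _ => μ.2.1 a) (sum_sp μ) fun a ha =>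
      subset_convexHull ℝ _ (Finset.mem_image_of_mem (ev ∘ cl) ha)⟩

/-- the projection -/
def q (cl : P → Fin N) (μ : Re P) : (cx cl).space := ⟨q0 cl μ, q0_mem cl μ⟩

namespace PG

variable (h : PG G P) {cl : P → Fin N} (hc : ∀ a b, cl a = cl b ↔ ∃ g : G, g • b = a)
include h

theorem cont_q (cl : P → Fin N) : Continuous (q cl) := by
  refine Continuous.subtype_mk (continuous_iff_continuousAt.2 fun μ => ?_) _
  obtain ⟨a, ha⟩ := sp_nonempty μ
  have c1 : Continuous fun ν : Re P => ∑ b ∈ (h.lf a).toFinset, ν.1 b • ev (cl b) :=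
    continuous_finsetSum _ fun b _ => (cont_co b).smul continuous_const
  refine c1.continuousAt.congr ?_
  filter_upwards [(cont_co a).continuousAt.eventually_ne (mem_sp.1 ha)] with ν hν
  exact (q0_eq cl fun b hb => by simpa using ν.2.2.2.2.total hν hb).symm

include hc

theorem injOn {s : Set P} (hs : IsChain (· ≤ ·) s) : InjOn cl s := fun a ha b hb e => by
  obtain ⟨g, rfl⟩ := (hc a b).1 e
  rw [h.eq_one_of_chain hs hb ha, one_smul]

theorem q0_cl {μ : Re P} {a : P} (ha : μ.1 a ≠ 0) : q0 cl μ (cl a) = μ.1 a := by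
  rw [q0_apply, Finset.sum_eq_single_of_mem a (mem_sp.2 ha), if_pos rfl]
  exact fun b hb hab => if_neg fun e => hab (h.injOn hc μ.2.2.2.2 (mem_sp.1 hb) ha e)

theorem exists_of_eq {μ ν : Re P} (e : q0 cl μ = q0 cl ν) {a : P} (ha : μ.1 a ≠ 0) :
    ∃ g : G, ν.1 (g • a) = μ.1 a := by
  have h1 := h.q0_cl hc ha
  have h2 := h1
  rw [e, q0_apply] at h2
  obtain ⟨b, hb, h3⟩ := Finset.exists_ne_zero_of_sum_ne_zero (h2.trans_ne ha)
  have h4 : cl b = cl a := by
    by_contra h4
    exact h3 (if_neg h4)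
  obtain ⟨g, rfl⟩ := (hc b a).1 h4
  exact ⟨g, by rw [← h1, e, ← h4, h.q0_cl hc (mem_sp.1 hb)]⟩

omit h in
theorem q0_smul (g : G) (μ : Re P) : q0 cl (g • μ) = q0 cl μ := by
  rw [q0_eq cl (t := (sp μ).image (g • ·)) (by
    rw [Finset.coe_image, coe_sp]; exact (supp_smul g μ.1).le),
    Finset.sum_image fun _ _ _ _ e => smul_left_cancel g e]
  exact Finset.sum_congr rfl fun a _ => by rw [smul_apply_smul, (hc (g • a) a).2 ⟨g, rfl⟩]

theorem eq_of_top {μ ν : Re P} (e : q0 cl μ = q0 cl ν) {m : P} (hμ : ∀ a, μ.1 a ≠ 0 → a ≤ m)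
    (hν : ∀ a, ν.1 a ≠ 0 → a ≤ m) {a : P} (ha : μ.1 a ≠ 0) : ν.1 a = μ.1 a := by
  obtain ⟨g, hg⟩ := h.exists_of_eq hc e ha
  rwa [h.reg g a m (hμ a ha) (hν _ (hg.trans_ne ha)), one_smul] at hg

theorem q0_eq_iff {μ ν : Re P} : q0 cl μ = q0 cl ν ↔ μ ∈ MulAction.orbit G ν := by
  refine ⟨fun e => ?_, ?_⟩
  · obtain ⟨m, hm, hm'⟩ := exists_top (sp_nonempty μ) (chain_sp μ)
    obtain ⟨n, hn, hn'⟩ := exists_top (sp_nonempty ν) (chain_sp ν)
    obtain ⟨g, hg⟩ := h.exists_of_eq hc e (mem_sp.1 hm)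
    obtain ⟨k, hk⟩ := h.exists_of_eq hc e.symm (mem_sp.1 hn)
    have h1 : g • m ≤ n := hn' _ (mem_sp.2 (hg.trans_ne (mem_sp.1 hm)))
    have h2 : k • n ≤ m := hm' _ (mem_sp.2 (hk.trans_ne (mem_sp.1 hn)))
    have e' : q0 cl μ = q0 cl (k • ν) := e.trans (q0_smul hc k ν).symm
    have hμ : ∀ a, μ.1 a ≠ 0 → a ≤ m := fun a ha => hm' a (mem_sp.2 ha)
    have hν : ∀ a, (k • ν).1 a ≠ 0 → a ≤ m := fun a ha => by
      have := smul_mono k (hn' _ (mem_sp.2 ha))
      rw [smul_inv_smul] at this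
      exact this.trans h2
    refine ⟨k, Subtype.ext (funext fun a => ?_)⟩
    by_cases ha : μ.1 a = 0
    · by_contra hb
      exact hb (h.eq_of_top hc e'.symm hν hμ fun e0 => hb (e0.trans ha.symm)).symm
    · exact h.eq_of_top hc e' hμ hν ha
  · rintro ⟨g, rfl⟩
    exact q0_smul hc g ν

theorem surj_q : Surjective (q cl) := by
  rintro ⟨x, hx⟩
  obtain ⟨_, ⟨t, -, ht, rfl⟩, hx'⟩ := Geometry.SimplicialComplex.mem_space_iff.1 hx
  obtain ⟨w, h0, h1, h2⟩ := Finset.mem_convexHull'.1 hx'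
  have hi : InjOn (ev ∘ cl) t := li_ev.injective.comp_injOn (h.injOn hc ht)
  rw [Finset.sum_image hi] at h1 h2
  have hs : support (fun a => if a ∈ t then w (ev (cl a)) else 0) ⊆ t := fun a ha => by
    by_contra hb
    exact ha (if_neg hb)
  refine ⟨⟨fun a => if a ∈ t then w (ev (cl a)) else 0, fun a => ?_, t.finite_toSet.subset hs,
    ?_, ht.mono hs⟩, Subtype.ext ?_⟩
  · dsimp only
    split_ifs with ha
    · exact h0 _ (Finset.mem_image_of_mem (ev ∘ cl) ha)
    · exact le_rfl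
  · rw [finsum_eq_sum_of_support_subset _ hs, ← h1]
    exact Finset.sum_congr rfl fun a ha => if_pos ha
  · refine (q0_eq cl hs).trans (Eq.trans ?_ h2)
    exact Finset.sum_congr rfl fun a ha => by simp only [if_pos ha, comp]

omit hc in
/-- a compact set meets every orbit -/
theorem cocompact : ∃ D : Set (Re P), IsCompact D ∧ ∀ μ : Re P, ∃ g : G, g • μ ∈ D := by
  obtain ⟨F, hF, hg⟩ := h.exists_dom
  refine ⟨_, isCompact_sub hF, fun μ => ?_⟩
  obtain ⟨m, -, hm⟩ := exists_top (sp_nonempty μ) (chain_sp μ)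
  obtain ⟨g, hg⟩ := hg m
  exact ⟨g, fun a ha => by simpa using hg _ (hm _ (mem_sp.2 ha))⟩

omit hc in
theorem disjoint (μ : Re P) : ∃ U ∈ 𝓝 μ, ∀ g : G, ((g • ·) '' U ∩ U).Nonempty → g = 1 := by
  obtain ⟨a, ha⟩ := sp_nonempty μ
  refine ⟨_, (cont_co a).continuousAt.eventually_ne (mem_sp.1 ha), ?_⟩
  rintro g ⟨_, ⟨ν, h1, rfl⟩, h2⟩
  exact h.free_re h1 h2

theorem isQuotientCoveringMap : IsQuotientCoveringMap (q cl) G where
  toIsQuotientMap := by
    obtain ⟨D, hD, hg⟩ := h.cocompact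
    have := isCompact_iff_compactSpace.1 hD
    refine IsQuotientMap.of_comp (f := (Subtype.val : D → Re P)) continuous_subtype_val
      (h.cont_q cl) (IsQuotientMap.of_surjective_continuous (fun x => ?_)
        ((h.cont_q cl).comp continuous_subtype_val))
    obtain ⟨μ, rfl⟩ := h.surj_q hc x
    obtain ⟨g, hg⟩ := hg μ
    exact ⟨⟨_, hg⟩, Subtype.ext (q0_smul hc g μ)⟩
  continuous_const_smul := continuous_const_smul
  apply_eq_iff_mem_orbit := Subtype.ext_iff.trans (h.q0_eq_iff hc)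
  disjoint := h.disjoint

omit hc [CovariantClass G P (· • ·) (· ≤ ·)] in
theorem exists_cl : ∃ (N : ℕ) (cl : P → Fin N), ∀ a b, cl a = cl b ↔ ∃ g : G, g • b = a := by
  have := h.fin
  obtain ⟨N, ⟨e⟩⟩ := Finite.exists_equiv_fin (MulAction.orbitRel.Quotient G P)
  exact ⟨N, fun a => e (Quotient.mk _ a), fun a b => e.injective.eq_iff.trans Quotient.eq⟩

end PG

/-- the clause of S0393 on the classifying complex -/
def KCl (G : Type) [Group G] : Prop :=
  ∃ (N : ℕ) (K : Geometry.SimplicialComplex ℝ (EuclideanSpace ℝ (Fin N))),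
    K.faces.Finite ∧ (∀ s ∈ K.faces, s.card ≤ 5) ∧ PathConnectedSpace K.space ∧
    (∀ n : ℕ, 2 ≤ n → ∀ x : K.space, Subsingleton (HomotopyGroup (Fin n) K.space x)) ∧
    ∃ x : K.space, Nonempty (FundamentalGroup K.space x ≃* G)

theorem PG.kCl (h : PG G P) [SimplyConnectedSpace (Re P)]
    (hπ : ∀ n : ℕ, 2 ≤ n → ∀ μ : Re P, Subsingleton (HomotopyGroup (Fin n) (Re P) μ)) : KCl G := by
  obtain ⟨N, cl, hc⟩ := h.exists_cl
  have hq := h.isQuotientCoveringMap hc
  obtain ⟨μ⟩ : Nonempty (Re P) := inferInstance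
  refine ⟨N, cx cl, fin_cx cl, fun s hs => ?_, hq.surjective.pathConnectedSpace hq.continuous,
    fun n hn => pi_base hq.isCoveringMap hq.surjective hn (hπ n hn), q cl μ,
    ⟨(hq.fundamentalGroupEquiv ⟨μ, rfl⟩).trans (MulEquiv.inv' G).symm⟩⟩
  obtain ⟨t, -, ht, rfl⟩ := mem_cx.1 hs
  exact Finset.card_image_le.trans (h.dim t ht)

end Crest.Agent.N255.Kc

end
end

-- ▼ part N255/Fp
section

/-!
# Row 255 (helper36): a group acting freely and cocompactly on a simply connected poset is finitely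
presented; Morse data make a poset simply connected
-/

set_option autoImplicit false
set_option linter.unusedSectionVars false

open Set

noncomputable section

namespace Crest.Agent.N255.Fp

variable {P : Type} [PartialOrder P]

/-- a non abelian cocycle on the order complex -/
def Coc {Γ : Type} [Group Γ] (θ : P → P → Γ) : Prop :=
  ∀ a b c, a ≤ b → b ≤ c → θ a b * θ b c = θ a c

/-- a developing map -/
def Dev {Γ : Type} [Group Γ] (θ : P → P → Γ) (ψ : P → Γ) : Prop := ∀ a c, a ≤ c → ψ a * θ a c = ψ c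

/-- the comparability graph is connected -/
def Conn (P : Type) [PartialOrder P] : Prop :=
  ∀ A : P → Prop, (∀ a c, a ≤ c → (A a ↔ A c)) → ∀ a b, A a → A b

/-- every cocycle is a coboundary -/
def SC (P : Type) [PartialOrder P] : Prop :=
  ∀ (Γ : Type) [Group Γ] (θ : P → P → Γ), Coc θ → ∃ ψ, Dev θ ψ

theorem Dev.uniq (h : Conn P) {Γ : Type} [Group Γ] {θ : P → P → Γ} {ψ ψ' : P → Γ} (h1 : Dev θ ψ)
    (h2 : Dev θ ψ') {a : P} (e : ψ a = ψ' a) (b : P) : ψ b = ψ' b :=
  h (fun c => ψ c = ψ' c) (fun a c hac => by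
    rw [← h1 a c hac, ← h2 a c hac]; exact mul_left_inj _ |>.symm) a b e

section fp

variable (G : Type) [Group G] [MulAction G P]

/-- the representative of the orbit -/
def rp (a : P) : P := (Quotient.mk (MulAction.orbitRel G P) a).out

theorem exists_ga (a : P) : ∃ g : G, g • rp G a = a := by
  have : (MulAction.orbitRel G P).r (rp G a) a := Quotient.exact (Quotient.out_eq _)
  exact MulAction.orbitRel_apply.1 ((MulAction.orbitRel G P).symm this)

/-- the group coordinate -/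
def ga (a : P) : G := (exists_ga G a).choose

theorem ga_rp (a : P) : ga G a • rp G a = a := (exists_ga G a).choose_spec

theorem rp_smul (g : G) (a : P) : rp G (g • a) = rp G a :=
  congrArg Quotient.out (Quotient.sound (MulAction.orbitRel_apply.2 (MulAction.mem_orbit a g)))

theorem inv_ga (a : P) : (ga G a)⁻¹ • a = rp G a := by
  rw [inv_smul_eq_iff, ga_rp]

theorem rp_rp (a : P) : rp G (rp G a) = rp G a := by
  conv_lhs => rw [← inv_ga G a]
  rw [rp_smul]

/-- edges up to the action -/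
def Ed : Type := {p : P × P // p.1 ≤ p.2 ∧ rp G p.2 = p.2}

variable {G}

theorem ga_smul (free : ∀ (g : G) (a : P), g • a = a → g = 1) (g : G) (a : P) :
    ga G (g • a) = g * ga G a := by
  have h := ga_rp G (g • a)
  rw [rp_smul] at h
  have : ((g * ga G a)⁻¹ * ga G (g • a)) • rp G a = rp G a := by
    rw [mul_smul, h, inv_smul_eq_iff, mul_smul, ga_rp]
  exact (inv_mul_eq_one.1 (free _ _ this)).symm

theorem ga_rp_one (free : ∀ (g : G) (a : P), g • a = a → g = 1) (a : P) : ga G (rp G a) = 1 := by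
  have h := ga_rp G (rp G a)
  rw [rp_rp] at h
  exact free _ _ h

theorem fin_rp (fin : Finite (MulAction.orbitRel.Quotient G P)) : {c : P | rp G c = c}.Finite :=
  (finite_range fun q : MulAction.orbitRel.Quotient G P => q.out).subset fun _ hc => ⟨_, hc⟩

open Classical in
/-- the tautological cochain -/
def th (mono : ∀ (g : G) (a b : P), a ≤ b → g • a ≤ g • b) (a c : P) : FreeGroup (Ed (P := P) G) :=
  if h : a ≤ c then FreeGroup.of ⟨((ga G c)⁻¹ • a, (ga G c)⁻¹ • c), mono _ _ _ h, by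
    rw [inv_ga, rp_rp]⟩ else 1

theorem th_smul (mono : ∀ (g : G) (a b : P), a ≤ b → g • a ≤ g • b)
    (free : ∀ (g : G) (a : P), g • a = a → g = 1) (g : G) {a c : P} (h : a ≤ c) :
    th mono (g • a) (g • c) = th mono a c := by
  simp only [th, dif_pos h, dif_pos (mono g _ _ h), ga_smul free, mul_inv_rev, mul_smul,
    inv_smul_smul]

theorem th_of (mono : ∀ (g : G) (a b : P), a ≤ b → g • a ≤ g • b)
    (free : ∀ (g : G) (a : P), g • a = a → g = 1) (e : Ed (P := P) G) :
    th mono e.1.1 e.1.2 = FreeGroup.of e := by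
  have h : ga G e.1.2 = 1 := by rw [← e.2.2]; exact ga_rp_one free _
  simp only [th, dif_pos e.2.1, h, inv_one, one_smul]
  rfl

/-- **finite presentation** -/
theorem fp_of [Nonempty P] (mono : ∀ (g : G) (a b : P), a ≤ b → g • a ≤ g • b)
    (free : ∀ (g : G) (a : P), g • a = a → g = 1) (fin : Finite (MulAction.orbitRel.Quotient G P))
    (low : ∀ c : P, {a | a ≤ c}.Finite) (hc : Conn P) (hs : SC P) : Group.IsFinitelyPresented G := by
  have hE : {p : P × P | p.1 ≤ p.2 ∧ rp G p.2 = p.2}.Finite :=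
    ((fin_rp fin).biUnion fun c _ => (low c).prod (finite_singleton c)).subset fun p hp =>
      mem_biUnion hp.2 ⟨hp.1, rfl⟩
  have : Finite (Ed (P := P) G) := hE.to_subtype
  let rl : P × P × P → FreeGroup (Ed (P := P) G) := fun t =>
    th mono t.1 t.2.1 * th mono t.2.1 t.2.2 * (th mono t.1 t.2.2)⁻¹
  let T : Set (P × P × P) := {t | t.1 ≤ t.2.1 ∧ t.2.1 ≤ t.2.2 ∧ rp G t.2.2 = t.2.2}
  have hT : T.Finite :=
    ((fin_rp fin).biUnion fun c _ => (low c).prod ((low c).prod (finite_singleton c))).subset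
      fun t ht => mem_biUnion ht.2.2 ⟨ht.1.trans ht.2.1, ht.2.1, rfl⟩
  have : Finite (rl '' T) := (hT.image rl).to_subtype
  let θ : P → P → PresentedGroup (rl '' T) := fun a c => PresentedGroup.mk _ (th mono a c)
  have hθ : Coc θ := fun a b c hab hbc => by
    have : PresentedGroup.mk (rl '' T) (rl ((ga G c)⁻¹ • a, (ga G c)⁻¹ • b, (ga G c)⁻¹ • c)) = 1 :=
      PresentedGroup.one_of_mem ⟨_, ⟨mono _ _ _ hab, mono _ _ _ hbc, by
        show rp G ((ga G c)⁻¹ • c) = (ga G c)⁻¹ • c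
        rw [inv_ga, rp_rp]⟩, rfl⟩
    simp only [rl, th_smul mono free _ hab, th_smul mono free _ hbc,
      th_smul mono free _ (hab.trans hbc), map_mul, map_inv] at this
    exact mul_inv_eq_one.1 this
  let f : Ed (P := P) G → G := fun e => (ga G e.1.1)⁻¹ * ga G e.1.2
  have hf : ∀ a c, a ≤ c → FreeGroup.lift f (th mono a c) = (ga G a)⁻¹ * ga G c := fun a c h => by
    simp only [th, dif_pos h, FreeGroup.lift_apply_of, f, ga_smul free]
    group
  have hr : ∀ r ∈ rl '' T, FreeGroup.lift f r = 1 := by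
    rintro _ ⟨⟨a, b, c⟩, ⟨h1, h2, -⟩, rfl⟩
    simp only [rl, map_mul, map_inv, hf _ _ h1, hf _ _ h2, hf _ _ (h1.trans h2)]
    group
  let π : PresentedGroup (rl '' T) →* G := PresentedGroup.toGroup hr
  have hπ : ∀ a c, a ≤ c → π (θ a c) = (ga G a)⁻¹ * ga G c := fun a c h => hf a c h
  obtain ⟨ψ0, h0⟩ := hs _ θ hθ
  obtain ⟨a1⟩ := ‹Nonempty P›
  set a0 := rp G a1 with ha0
  let ψ : P → PresentedGroup (rl '' T) := fun c => (ψ0 a0)⁻¹ * ψ0 c
  have hψ : Dev θ ψ := fun a c h => by simp only [ψ, mul_assoc, h0 a c h]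
  have hψ0 : ψ a0 = 1 := inv_mul_cancel _
  have hπψ : ∀ c, π (ψ c) = ga G c :=
    Dev.uniq hc (θ := fun a c => (ga G a)⁻¹ * ga G c) (ψ := fun c => π (ψ c)) (ψ' := ga G)
      (fun a c h => by
        beta_reduce
        rw [← hπ a c h, ← map_mul, hψ a c h]) (fun a c _ => by group) (a := a0)
      (by rw [hψ0, map_one, ha0, ga_rp_one free])
  refine Group.IsFinitelyPresented.of_surjective π
    (fun g => ⟨ψ (g • a0), by rw [hπψ, ga_smul free, ha0, ga_rp_one free, mul_one]⟩)
    ⟨ψ '' {c | rp G c = c}, (fin_rp fin).image _, le_antisymm ?_ ?_⟩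
  · refine Subgroup.normalClosure_le_normal ?_
    rintro _ ⟨c, hc, rfl⟩
    show π (ψ c) = 1
    rw [hπψ, ← hc, ga_rp_one free]
  · set N := Subgroup.normalClosure (ψ '' {c | rp G c = c})
    let m := QuotientGroup.mk' N
    have hm : ∀ c, m (ψ (rp G c)) = 1 := fun c => (QuotientGroup.eq_one_iff _).2
      (Subgroup.subset_normalClosure ⟨_, rp_rp G c, rfl⟩)
    have hg : ∀ (g : G) c, ψ (g • c) = ψ (g • a0) * ψ c := fun g =>
      Dev.uniq hc (θ := θ) (ψ := fun c => ψ (g • c)) (ψ' := fun c => ψ (g • a0) * ψ c)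
        (fun a c h => by
          have := hψ _ _ (mono g _ _ h)
          simp only [θ, th_smul mono free g h] at this
          exact this)
        (fun a c h => by rw [mul_assoc, hψ a c h]) (a := a0) (by rw [hψ0, mul_one])
    let s : G →* _ := MonoidHom.mk' (fun g => m (ψ (g • a0))) fun g h => by
      rw [mul_smul, hg, map_mul]
    have hs : ∀ c, m (ψ c) = s (ga G c) := fun c => by
      conv_lhs => rw [← ga_rp G c, hg, map_mul, hm, mul_one]
      rfl
    have e : s.comp π = m := PresentedGroup.ext fun e => by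
      have h1 : (PresentedGroup.of e : PresentedGroup (rl '' T)) = θ e.1.1 e.1.2 := by
        simp only [θ, th_of mono free]; rfl
      rw [h1, MonoidHom.comp_apply, hπ _ _ e.2.1, map_mul, map_inv, ← hs, ← hs, ← hψ _ _ e.2.1,
        map_mul m (ψ e.1.1), inv_mul_cancel_left]
    intro x hx
    have : m x = 1 := by rw [← e, MonoidHom.comp_apply, MonoidHom.mem_ker.1 hx, map_one]
    exact (QuotientGroup.eq_one_iff _).1 this

end fp

section morse

variable {V W : Type} [Preorder W] [WellFoundedLT W] {top : P → V} {ht : V → W} {o : P}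

/-- Morse data (weak form): below the largest cell `D` with top vertex `p`, every face `c` which
misses `p` lies with `b` in a face `j` which misses `p` -/
structure Mw (top : P → V) (ht : V → W) (o : P) : Prop where
  face : ∀ a b, a ≤ b → top a = top b ∨ ht (top a) < ht (top b)
  base : ∀ c, top c = top o → c = o
  step : ∀ p, (∃ c, top c = p) → p ≠ top o → ∃ D b, top D = p ∧ (∀ c, top c = p → c ≤ D) ∧ b ≤ D ∧
    top b ≠ p ∧ ∀ c, c ≤ D → top c ≠ p → ∃ j, c ≤ j ∧ b ≤ j ∧ j ≤ D ∧ top j ≠ p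

theorem Mw.ind (_h : Mw top ht o) {A : P → Prop}
    (H : ∀ c, (∀ a, ht (top a) < ht (top c) → A a) → A c) (c : P) : A c :=
  (InvImage.wf (fun c => ht (top c)) wellFounded_lt).induction c H

theorem Mw.not_lt (h : Mw top ht o) (c : P) : ¬ ht (top c) < ht (top o) := by
  induction c using h.ind with
  | H c ih =>
    intro hc
    obtain ⟨D, b, hD, -, hb, hb', -⟩ := h.step _ ⟨c, rfl⟩ fun e => lt_irrefl _ (e ▸ hc)
    have := (h.face b D hb).resolve_left (hD ▸ hb')
    rw [hD] at this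
    exact ih b this (this.trans hc)

theorem Mw.conn (h : Mw top ht o) : Conn P := by
  intro A hA
  have : ∀ c, A c ↔ A o := fun c => by
    induction c using h.ind with
    | H c ih =>
      by_cases e : top c = top o
      · rw [h.base c e]
      obtain ⟨D, b, hD, hle, hb, hb', -⟩ := h.step _ ⟨c, rfl⟩ e
      have := (h.face b D hb).resolve_left (hD ▸ hb')
      rw [hD] at this
      rw [hA c D (hle c rfl), ← hA b D hb, ih b this]
  exact fun a b ha => (this b).2 ((this a).1 ha)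

theorem Mw.sc (h : Mw top ht o) : SC P := by
  classical
  intro Γ _ θ hθ
  have : Nonempty P := ⟨o⟩
  choose! D b hD hle hb hb' hj using h.step
  have hlt : ∀ c a, top c ≠ top o → a ≤ D (top c) → top a ≠ top c → ht (top a) < ht (top c) :=
    fun c a e ha ha' => by
      have := (h.face a _ ha).resolve_left (by rw [hD _ ⟨c, rfl⟩ e]; exact ha')
      rwa [hD _ ⟨c, rfl⟩ e] at this
  let wf := InvImage.wf (fun c => ht (top c)) (wellFounded_lt (α := W))
  let ψ : P → Γ := wf.fix fun c ih => if e : top c = top o then 1 else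
    ih (b (top c)) (hlt c _ e (hb _ ⟨c, rfl⟩ e) (hb' _ ⟨c, rfl⟩ e)) * θ (b (top c)) (D (top c)) *
      (θ c (D (top c)))⁻¹
  have hψ : ∀ c, top c ≠ top o →
      ψ c = ψ (b (top c)) * θ (b (top c)) (D (top c)) * (θ c (D (top c)))⁻¹ := fun c e => by
    simp only [ψ]
    rw [WellFounded.fix_eq, dif_neg e]
  refine ⟨ψ, fun a c => ?_⟩
  induction c using h.ind generalizing a with
  | H c ih =>
    intro hac
    by_cases e : top c = top o
    · have hc := h.base c e
      subst hc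
      have ha := h.base a ((h.face a c hac).resolve_right (h.not_lt a))
      subst ha
      have := hθ a a a le_rfl le_rfl
      rw [mul_eq_left.1 this, mul_one]
    have hc := hle _ ⟨c, rfl⟩ e c rfl
    rw [hψ c e, eq_mul_inv_iff_mul_eq, mul_assoc, hθ a c _ hac hc]
    by_cases e' : top a = top c
    · rw [hψ a (e' ▸ e), e', inv_mul_cancel_right]
    · obtain ⟨j, h1, h2, h3, h4⟩ := hj _ ⟨c, rfl⟩ e a (hac.trans hc) e'
      have hl := hlt c j e h3 h4
      rw [← hθ a j _ h1 h3, ← hθ _ j _ h2 h3, ← mul_assoc, ← mul_assoc, ih j hl _ h1, ih j hl _ h2]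

/-- **finite presentation from Morse data** -/
theorem Mw.fp {G : Type} [Group G] [MulAction G P] (h : Mw top ht o)
    (mono : ∀ (g : G) (a b : P), a ≤ b → g • a ≤ g • b)
    (free : ∀ (g : G) (a : P), g • a = a → g = 1) (fin : Finite (MulAction.orbitRel.Quotient G P))
    (low : ∀ c : P, {a | a ≤ c}.Finite) : Group.IsFinitelyPresented G :=
  haveI : Nonempty P := ⟨o⟩
  fp_of mono free fin low h.conn h.sc

end morse

end Crest.Agent.N255.Fp

end
end

-- ▼ part N255/Ce/Mor
section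

/-!
# Row 255 (helper2): Morse data of the mirror model; the classifying space and finite presentation
-/

set_option autoImplicit false

noncomputable section

namespace Crest.Agent.N255.Ce

open Ra

variable {S K F Nd Ed : Type}

/-- the upper end of a cell of the rooted tree -/
def Rt.upper {src tgt : Ed → Nd} (R : Rt src tgt) : Nd ⊕ Ed → Nd
  | .inl t => t
  | .inr e => R.up e

theorem Rt.up_ne {src tgt : Ed → Nd} (R : Rt src tgt) (e : Ed) : R.up e ≠ R.o := fun h => by
  have := R.lt e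
  rw [h, R.ht_o] at this
  cases this

namespace Mir

variable [DecidableEq S] [Group F] [MulAction F Nd] [MulAction F Ed]
  {M : Mir S K F Nd Ed} {x y z : Nd ⊕ Ed}

theorem tle_ed (R : Rt M.src M.tgt) {e : Ed} :
    M.tle x (.inr e) ↔ x = .inr e ∨ x = .inl (R.up e) ∨ x = .inl (R.dn e) := by
  rw [tle, Bool.exists_bool]
  rcases R.ud e with h | h <;> simp [nd, h.1, h.2, or_comm]

theorem upper_mono (R : Rt M.src M.tgt) (h : M.tle x y) :
    R.upper x = R.upper y ∨ R.ht (R.upper x) < R.ht (R.upper y) := by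
  rcases y with t | e
  · exact Or.inl (tle_inl.1 h ▸ rfl)
  · rcases (tle_ed R).1 h with rfl | rfl | rfl
    exacts [Or.inl rfl, Or.inl rfl, Or.inr (R.lt e)]

theorem tree_step (R : Rt M.src M.tgt) (t : Nd) : ∃ (d : Nd ⊕ Ed) (b : Nd), R.upper d = t ∧
    (∀ c, R.upper c = t → M.tle c d) ∧ M.tle (.inl b) d ∧
    (∀ c, M.tle c d → c ≠ .inl b → R.upper c = t ∧ ∀ x, M.tle c x → M.tle (.inl b) x → M.tle d x) ∧
    (b = t → t = R.o) ∧
    ∀ s, (∀ e, s ∈ M.sp (R.up e) → s ∈ M.sp (R.dn e)) → s ∈ M.sp t → s ∈ M.sup d := by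
  by_cases h : t = R.o
  · refine ⟨.inl t, t, rfl, ?_, tle_rfl, fun c a b => absurd (tle_inl.1 a) b, fun _ => h,
      fun s _ a => a⟩
    rintro (c | c) e
    · exact Or.inl (congrArg _ e)
    · exact absurd (e.trans h) (R.up_ne c)
  obtain ⟨e, rfl, he⟩ := R.par t h
  refine ⟨.inr e, R.dn e, rfl, ?_, (tle_ed R).2 (Or.inr (Or.inr rfl)), fun c a b => ?_,
    fun a => absurd (congrArg R.ht a) (R.lt e).ne, fun s a b => ?_⟩
  · rintro (c | c) a
    · exact (tle_ed R).2 (Or.inr (Or.inl (congrArg _ a)))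
    · exact Or.inl (congrArg _ (he c a))
  · rcases (tle_ed R).1 a with rfl | rfl | rfl
    · exact ⟨rfl, fun x a _ => a⟩
    · refine ⟨rfl, ?_⟩
      have l := R.lt e
      rintro (x | x) a1 a2
      · have := Sum.inl_injective ((tle_inl.1 a1).trans (tle_inl.1 a2).symm)
        rw [this] at l
        exact absurd l (lt_irrefl _)
      · have l' := R.lt x
        rw [tle_ed R] at a1 a2
        simp only [reduceCtorEq, false_or, Sum.inl.injEq] at a1 a2
        rcases a1 with a1 | a1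
        · exact Or.inl (congrArg _ (he x a1.symm).symm)
        · rcases a2 with a2 | a2 <;> rw [a1, a2] at l <;> omega
    · exact absurd rfl b
  · have := a e b
    rcases R.ud e with h | h <;> rw [h.1] at b <;> rw [h.2] at this <;>
      exact Finset.mem_inter.2 ⟨‹_›, ‹_›⟩

variable (M)

/-- the rooting that is used over the vertex `u` -/
def rt (u : W M.Γ) : Rt M.src M.tgt := (M.root (InF u) (InF_clique u)).choose

theorem rt_sp {u : W M.Γ} {s : S} (h : s ∈ In u) : s ∈ M.sp (M.rt u).o ∧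
    ∀ e, s ∈ M.sp ((M.rt u).up e) → s ∈ M.sp ((M.rt u).dn e) :=
  (M.root (InF u) (InF_clique u)).choose_spec s (mem_InF.2 h)

/-- the Morse function on vertices -/
def hv (p : W M.Γ × Nd) : ℕ ×ₗ ℕ := toLex (len p.1, (M.rt p.1).ht p.2)

variable [LinearOrder K]

/-- the top vertex of a cell -/
def tv (a : M.Cell) : W M.Γ × Nd := (top a.w a.τ, (M.rt (top a.w a.τ)).upper a.c)

/-- vertices as cells -/
def vx (u : W M.Γ) (t : Nd) : M.Cell := ⟨u, ∅, .inl t, by simp, by simp, by simp⟩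

variable {M} {a b : M.Cell} {u : W M.Γ} {t : Nd}

theorem tv_vx (u : W M.Γ) (t : Nd) : M.tv (M.vx u t) = (u, t) :=
  Prod.ext (top_eq_self (by simp [vx])) rfl

theorem tv_eq : M.tv a = (u, t) ↔ Cell.Has u a ∧ (∀ s ∈ a.τ, s ∈ In u) ∧ (M.rt u).upper a.c = t := by
  refine ⟨fun h => ?_, fun h => ?_⟩
  · obtain ⟨rfl, rfl⟩ := Prod.mk.inj h
    exact ⟨a.has_top, fun _ hs => mem_In_top a.cl hs, rfl⟩
  · rw [tv, ← eq_top a.cl h.1 h.2.1, h.2.2]

theorem tv_mono (h : a ≤ b) : M.tv a = M.tv b ∨ M.hv (M.tv a) < M.hv (M.tv b) := by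
  have h1 : top b.w b.τ = top (top a.w a.τ) b.τ := (top_congr b.cl (a.has_top.mono h)).symm
  have h2 := len_top b.cl (top a.w a.τ)
  rw [hv, hv, Prod.Lex.toLex_lt_toLex]
  rcases (b.τ \ InF (top a.w a.τ)).eq_empty_or_nonempty with e | e
  · have h3 : top b.w b.τ = top a.w a.τ := by
      rw [h1, top_eq_self fun s hs => mem_InF.1 (Finset.sdiff_eq_empty_iff_subset.1 e hs)]
    simp only [tv, h3]
    exact (upper_mono _ h.2.1).imp (fun e => by rw [e]) fun l => Or.inr ⟨trivial, l⟩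
  · have := e.card_pos
    exact Or.inr (Or.inl (by simp only [tv, h1]; omega))

theorem tv_base (h : M.tv a = (1, (M.rt 1).o)) : a = M.vx 1 (M.rt 1).o := by
  obtain ⟨h1, h2, h3⟩ := tv_eq.1 h
  have h4 : a.τ = ∅ := Finset.eq_empty_of_forall_notMem fun s hs => by simpa using h2 s hs
  have h5 : a.c = .inl (M.rt 1).o := by
    revert h3
    rcases a.c with c | c
    · exact congrArg _
    · exact fun e => absurd e ((M.rt 1).up_ne c)
  exact h1.ext (Cell.has_self (M.vx 1 (M.rt 1).o)) h4 h5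

theorem tv_step (u : W M.Γ) (t : Nd) (h0 : (u, t) ≠ (1, (M.rt 1).o)) : ∃ D b : M.Cell,
    M.tv D = (u, t) ∧ (∀ c, M.tv c = (u, t) → c ≤ D) ∧ b ≤ D ∧ M.tv b ≠ (u, t) ∧
    ∀ c ≤ D, M.tv c ≠ (u, t) → ∃ j, IsLUB {c, b} j ∧ M.tv j ≠ (u, t) := by
  obtain ⟨d, tb, t1, t2, t3, t4, t5, t6⟩ := tree_step (M.rt u) t
  set J := InF u ∩ M.sp t with hJ
  have cJ : M.Γ.IsClique (J : Set S) := (InF_clique u).subset (by simp [hJ])
  have jI : ∀ s ∈ J, s ∈ In u := fun s hs => mem_InF.1 (Finset.mem_inter.1 hs).1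
  have sJ : J ⊆ M.sup d := fun s hs => t6 s (M.rt_sp (jI s hs)).2 (Finset.mem_inter.1 hs).2
  have hD := Cell.has_mk' u J d cJ sJ
  have hb : u * pr M.Γ J * pr M.Γ J = u := by rw [mul_assoc, pr_mul_self cJ, mul_one]
  have hbD : Cell.Has (u * pr M.Γ J) (M.mk' u J d cJ sJ) :=
    hD.mul (pr_mem_WT subset_rfl)
  refine ⟨M.mk' u J d cJ sJ, M.vx (u * pr M.Γ J) tb, tv_eq.2 ⟨hD, jI, t1⟩, fun c hc => ?_,
    ⟨Finset.empty_subset _, t3, hbD⟩, fun e => ?_, fun c hc hn => ?_⟩
  · obtain ⟨h1, h2, h3⟩ := tv_eq.1 hc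
    refine Cell.le_of_has h1 hD (fun s hs => Finset.mem_inter.2 ⟨mem_InF.2 (h2 s hs), ?_⟩) (t2 _ h3)
    have := c.sub hs
    revert this h3
    rcases c.c with x | x
    · rintro rfl; exact id
    · rintro rfl this
      rcases (M.rt u).ud x with h | h <;> simp only [Rt.upper, h.1]
      exacts [(Finset.mem_inter.1 this).1, (Finset.mem_inter.1 this).2]
  · rw [tv_vx, Prod.mk.injEq, mul_eq_left] at e
    have h1 : J = ∅ := pr_inj cJ (by simp) (e.1.trans pr_empty.symm)
    have h2 := t5 e.2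
    have h3 : u = 1 := In_eq_empty.1 (Set.eq_empty_of_forall_notMem fun s hs => by
      have : s ∈ J := Finset.mem_inter.2 ⟨mem_InF.2 hs, h2 ▸ (M.rt_sp hs).1⟩
      simp [h1] at this)
    exact h0 (by rw [h2, h3])
  · obtain ⟨σ, s1, s2⟩ := (mem_WT cJ).1 (hbD.rel hc.2.2)
    have uJ : c.τ ∪ σ ⊆ J := Finset.union_subset hc.1 s1
    have cU : M.Γ.IsClique (↑(c.τ ∪ σ) : Set S) := cJ.subset (Finset.coe_subset.2 uJ)
    obtain ⟨jc, j1, j2, j3, j4, j5⟩ : ∃ jc, M.tle jc d ∧ M.tle c.c jc ∧ M.tle (.inl tb) jc ∧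
        (∀ x, M.tle c.c x → M.tle (.inl tb) x → M.tle jc x) ∧
        ((M.rt u).upper jc = t → (M.rt u).upper c.c = t) := by
      by_cases e : c.c = .inl tb
      · exact ⟨c.c, hc.2.1, tle_rfl, Or.inl e.symm, fun x a _ => a, id⟩
      · exact ⟨d, tle_rfl, hc.2.1, t3, (t4 _ hc.2.1 e).2, fun _ => (t4 _ hc.2.1 e).1⟩
    have hj := Cell.has_mk' (u * pr M.Γ J) (c.τ ∪ σ) jc cU (uJ.trans (sJ.trans j1.sup))
    refine ⟨M.mk' (u * pr M.Γ J) (c.τ ∪ σ) jc cU (uJ.trans (sJ.trans j1.sup)), ⟨?_, ?_⟩,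
      fun e => hn ?_⟩
    · rintro _ (rfl | rfl)
      · exact ⟨Finset.subset_union_left, j2, hj.of_rel (s2 ▸ pr_mem_WT (by simp [mk']))⟩
      · exact ⟨Finset.empty_subset _, j3, hj⟩
    · intro x hx
      have x1 : c ≤ x := hx (by simp)
      have x2 : M.vx (u * pr M.Γ J) tb ≤ x := hx (by simp)
      obtain ⟨σ', a1, a2⟩ := (mem_WT x.cl).1 (x2.2.2.rel x1.2.2)
      have : σ = σ' := pr_inj (cJ.subset s1) (x.cl.subset a1) (s2.symm.trans a2)
      exact Cell.le_of_has hj x2.2.2 (Finset.union_subset x1.1 (this ▸ a1)) (j4 _ x1.2.1 x2.2.1)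
    · obtain ⟨h1, -, h3⟩ := tv_eq.1 e
      obtain ⟨σ', a1, a2⟩ := (mem_WT cU).1 (hj.rel h1)
      have a3 : J = σ' := pr_inj cJ (cU.subset a1) (by
        rw [← a2, mul_inv_rev, inv_mul_cancel_right, pr_inv cJ])
      refine tv_eq.2 ⟨?_, fun s hs => jI s (hc.1 hs), j5 h3⟩
      have a4 : c.w⁻¹ * u = pr M.Γ (symmDiff σ J) := by
        rw [← pr_mul_pr cJ s1 subset_rfl, ← pr_inv (cJ.subset s1), ← s2, mul_inv_rev, inv_inv,
          mul_assoc, hb]
      rw [Cell.Has, a4]
      refine pr_mem_WT fun s hs => ?_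
      rcases Finset.mem_symmDiff.1 hs with h | h
      · exact absurd (s1 h.1) h.2
      · exact (Finset.mem_union.1 (a1 (a3 ▸ h.1))).resolve_right h.2

theorem morse [Finite K] : Mo.Morse M.tv M.hv (M.vx 1 (M.rt 1).o) where
  mono _ _ := tv_mono
  low := Cell.low
  up := M.pg.up
  min _ h := (Cell.eq_or_dim_lt h).resolve_right (Nat.not_lt_zero _)
  base _ h := tv_base (h.trans (tv_vx _ _))
  step c h := by
    obtain ⟨D, b, h1, h2, h3⟩ := tv_step (M.tv c).1 (M.tv c).2 fun e => h (tv_base e)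
    exact ⟨D, b, h1, h2, h3⟩

theorem kCl [Finite K] : Kc.KCl M.G :=
  haveI := (morse (M := M)).sc
  M.pg.kCl fun n _ μ => morse.wc n μ

theorem fp [Finite K] : Group.IsFinitelyPresented M.G := by
  have h := morse (M := M)
  refine Fp.Mw.fp (top := M.tv) (ht := M.hv) (o := M.vx 1 (M.rt 1).o) ⟨h.mono, h.base, ?_⟩
    (fun g _ _ l => Kc.smul_mono g l) (fun _ _ e => M.pg.free e) M.pg.fin Cell.low
  rintro _ ⟨c, rfl⟩ hc
  obtain ⟨D, b, h1, h2, h3, h4, h5⟩ := h.step c fun e => hc (e ▸ rfl)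
  refine ⟨D, b, h1, h2, h3, h4, fun x a n => ?_⟩
  obtain ⟨j, j1, j2⟩ := h5 x a n
  exact ⟨j, j1.1 (by simp), j1.1 (by simp), j1.2 (by rintro _ (rfl | rfl) <;> assumption), j2⟩

end Mir

end Crest.Agent.N255.Ce

end
private theorem rz_437356db53 : type_of% @_root_.Crest.Agent.N255.Ce.Rt.upper.eq_1 := @_root_.Crest.Agent.N255.Ce.Rt.upper.eq_1 -- L21
end

-- ▼ part N255/Ce/All
section

/-!
# Row 255 (helper10): the group of a mirror model with the chamber lemma is a `PD4` group of finite type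
-/

set_option autoImplicit false

namespace Crest.Agent.N255.Ce

/-- the last clause of the statement -/
def NoMf (G : Type) [Group G] : Prop :=
  ¬ ∃ (M : Type) (_ : TopologicalSpace M) (_ : ChartedSpace (EuclideanSpace ℝ (Fin 4)) M),
    T2Space M ∧ SecondCountableTopology M ∧ CompactSpace M ∧ ConnectedSpace M ∧
    (∀ n : ℕ, 2 ≤ n → ∀ x : M, Subsingleton (HomotopyGroup (Fin n) M x)) ∧
    ∃ x : M, Nonempty (FundamentalGroup M x ≃* G)


variable {S K F Nd Ed : Type} [DecidableEq S] [Group F] [MulAction F Nd] [MulAction F Ed]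
  {M : Mir S K F Nd Ed} [LinearOrder K] [Finite K]


/-- the statement of the row from the chamber lemma and the non manifold clause -/
theorem Mir.Cham.s0393 (H : M.Cham) (h : NoMf M.G) :
    ∃ (G : Type) (_ : Group G), Group.IsFinitelyPresented G ∧
      (∃ (N : ℕ) (K : Geometry.SimplicialComplex ℝ (EuclideanSpace ℝ (Fin N))),
        K.faces.Finite ∧ (∀ s ∈ K.faces, s.card ≤ 5) ∧ PathConnectedSpace K.space ∧
        (∀ n : ℕ, 2 ≤ n → ∀ x : K.space, Subsingleton (HomotopyGroup (Fin n) K.space x)) ∧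
        ∃ x : K.space, Nonempty (FundamentalGroup K.space x ≃* G)) ∧
      (∀ i : ℕ, i ≠ 4 → CategoryTheory.Limits.IsZero (groupCohomology (Rep.leftRegular ℤ G) i)) ∧
      Nonempty (groupCohomology (Rep.leftRegular ℤ G) 4 ≃+ ℤ) ∧
      (∀ g : G, (groupCohomology.functor ℤ G 4).map
          ((Rep.leftRegular ℤ G).leftRegularHom (MonoidAlgebra.single g (1 : ℤ))) =
        CategoryTheory.CategoryStruct.id (groupCohomology (Rep.leftRegular ℤ G) 4)) ∧
      ¬ ∃ (M : Type) (_ : TopologicalSpace M) (_ : ChartedSpace (EuclideanSpace ℝ (Fin 4)) M),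
        T2Space M ∧ SecondCountableTopology M ∧ CompactSpace M ∧ ConnectedSpace M ∧
        (∀ n : ℕ, 2 ≤ n → ∀ x : M, Subsingleton (HomotopyGroup (Fin n) M x)) ∧
        ∃ x : M, Nonempty (FundamentalGroup M x ≃* G) :=
  ⟨M.G, inferInstance, M.fp, M.kCl, H.pd4.1, H.pd4.2.1, H.pd4.2.2, h⟩

end Crest.Agent.N255.Ce
end

-- ▼ part N255/Da/Fc

/-!
# Row 255 (helper36): the chamber lemma for the concrete model; the `PD4` side of the row
-/

set_option autoImplicit false

noncomputable section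

namespace Crest.Agent.N255.Da

/-- **the finite facts** -/
def fc : D.Fc := fcOf lk1 lk2 lk3

/-- the local structure -/
def loc : Ch.Loc D.mir := fc.loc

/-- **the chamber lemma** -/
def cham : D.mir.Cham := loc.cham ⟨1, 0, true⟩


/-- the statement of the row from the non manifold clause -/
theorem s0393_of (h : Ce.NoMf D.mir.G) :
    ∃ (G : Type) (_ : Group G), Group.IsFinitelyPresented G ∧
      (∃ (N : ℕ) (K : Geometry.SimplicialComplex ℝ (EuclideanSpace ℝ (Fin N))),
        K.faces.Finite ∧ (∀ s ∈ K.faces, s.card ≤ 5) ∧ PathConnectedSpace K.space ∧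
        (∀ n : ℕ, 2 ≤ n → ∀ x : K.space, Subsingleton (HomotopyGroup (Fin n) K.space x)) ∧
        ∃ x : K.space, Nonempty (FundamentalGroup K.space x ≃* G)) ∧
      (∀ i : ℕ, i ≠ 4 → CategoryTheory.Limits.IsZero (groupCohomology (Rep.leftRegular ℤ G) i)) ∧
      Nonempty (groupCohomology (Rep.leftRegular ℤ G) 4 ≃+ ℤ) ∧
      (∀ g : G, (groupCohomology.functor ℤ G 4).map
          ((Rep.leftRegular ℤ G).leftRegularHom (MonoidAlgebra.single g (1 : ℤ))) =
        CategoryTheory.CategoryStruct.id (groupCohomology (Rep.leftRegular ℤ G) 4)) ∧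
      ¬ ∃ (M : Type) (_ : TopologicalSpace M) (_ : ChartedSpace (EuclideanSpace ℝ (Fin 4)) M),
        T2Space M ∧ SecondCountableTopology M ∧ CompactSpace M ∧ ConnectedSpace M ∧
        (∀ n : ℕ, 2 ≤ n → ∀ x : M, Subsingleton (HomotopyGroup (Fin n) M x)) ∧
        ∃ x : M, Nonempty (FundamentalGroup M x ≃* G) :=
  cham.s0393 h

end Crest.Agent.N255.Da

end
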