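import Crest.Agent.N255.Da.Br

/-!
# Row 255 (helper36): loops over all cliques of a mask; cochains given on masks
-/

set_option autoImplicit false
set_option linter.unusedSectionVars false

namespace Crest.Agent.N255.Da

open Ch

/-- the mask of a list -/
def mkL : List ℕ → ℕ
  | [] => 0
  | a :: l => 2 ^ a + mkL l

/-- the sign of inserting `s` -/
def sgN (cn : ℕ → ℕ) (s : ℕ) : List ℕ → ℤ
  | [] => 1
  | x :: l => bif Nat.blt (cn x) (cn s) then -sgN cn s l else sgN cn s l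

/-- sum over a list -/
def sumL (g : ℕ → ℤ) : List ℕ → ℤ
  | [] => 0
  | x :: l => g x + sumL g l

/-- sum over the bits -/
def sumB (g : ℕ → ℤ) : ℕ → ℕ → ℤ
  | 0, _ => 0
  | f + 1, L => bif L == 0 then 0 else g L.log2 + sumB g f (L ^^^ 2 ^ L.log2)

/-- `P l L` for all cliques `l` between `l` and `l ∪ A`; `L` is the link -/
def allC (nb : ℕ → ℕ) (P : List ℕ → ℕ → Bool) : ℕ → List ℕ → ℕ → ℕ → Bool
  | 0, _, _, _ => false
  | f + 1, l, L, A => bif A == 0 then P l L else
      allC nb P f (A.log2 :: l) (L &&& nb A.log2) (A &&& nb A.log2) &&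
        allC nb P f l L (A ^^^ 2 ^ A.log2)

/-- sum over all cliques between `l` and `l ∪ A` -/
def sumC (nb : ℕ → ℕ) (g : List ℕ → ℤ) : ℕ → List ℕ → ℕ → ℤ
  | 0, l, _ => g l
  | f + 1, l, A => bif A == 0 then g l else
      sumC nb g f (A.log2 :: l) (A &&& nb A.log2) + sumC nb g f l (A ^^^ 2 ^ A.log2)

/-- the value of a homogeneous cochain -/
def gN (n : ℕ) (an : ℕ → ℤ) (l : List ℕ) : ℤ := bif l.length == n then an (mkL l) else 0

/-- the coboundary of a homogeneous cochain at `l` -/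
def deN (cn : ℕ → ℕ) (n : ℕ) (an : ℕ → ℤ) (l : List ℕ) : ℤ :=
  bif l.length == n + 1 then sumL (fun s => sgN cn s l * an (mkL l - 2 ^ s)) l else 0

/-- the boundary of a homogeneous chain at `l` with link `L` -/
def bdN (cn : ℕ → ℕ) (f n : ℕ) (zn : ℕ → ℤ) (l : List ℕ) (L : ℕ) : ℤ :=
  bif l.length + 1 == n then sumB (fun s => sgN cn s l * zn (2 ^ s + mkL l)) f L else 0

/-- values read from two hash tables -/
def hv (p tp tm : ℕ) (m : ℕ) : ℤ :=
  bif tp.testBit (m % p) then 1 else bif tm.testBit (m % p) then -1 else 0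

/-- the table with the given bits -/
def tb : List ℕ → ℕ
  | [] => 0
  | a :: l => 2 ^ a ||| tb l

theorem Sub.trans {A B C : ℕ} (h : Sub A B) (h' : Sub B C) : Sub A C := fun k hk => h' k (h k hk)

theorem Sub.refl (A : ℕ) : Sub A A := fun _ h => h

theorem Sub.lt {A M n : ℕ} (h : Sub A M) (hM : M < 2 ^ n) : A < 2 ^ n :=
  Nat.lt_pow_two_of_testBit _ fun i hi => by
    by_contra e
    have := h i (by simpa using e)
    rw [Nat.testBit_lt_two_pow (hM.trans_le (Nat.pow_le_pow_right (by norm_num) hi))] at this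
    exact absurd this (by simp)

theorem Sub.and {A B : ℕ} (h : Sub A B) (C : ℕ) : Sub (A &&& C) (B &&& C) := fun k hk => by
  rw [Nat.testBit_and, Bool.and_eq_true] at hk ⊢
  exact ⟨h k hk.1, hk.2⟩

theorem xor_log_lt {A f : ℕ} (h0 : A ≠ 0) (h : A < 2 ^ (f + 1)) : A ^^^ 2 ^ A.log2 < 2 ^ f :=
  Nat.lt_pow_two_of_testBit _ fun i hi => by
    rw [Nat.testBit_xor]
    by_cases e : A.log2 = i
    · rw [← e, Nat.testBit_log2 h0, Nat.testBit_two_pow_self]; rfl
    · have h1 : A.log2 < f + 1 := (Nat.log2_lt h0).2 h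
      rw [Nat.testBit_two_pow_of_ne e, Bool.xor_false]
      exact Nat.testBit_lt_two_pow ((Nat.log2_lt h0).1 (by omega))

variable {V : Type} [DecidableEq V] [Fintype V] {G : SimpleGraph V} {enc : V → ℕ} {nb : ℕ → ℕ}
  {M : ℕ}

/-- the mask of a set -/
def msk (enc : V → ℕ) (τ : Finset V) : ℕ := ∑ v ∈ τ, 2 ^ enc v

/-- the set of a list -/
def TL (enc : V → ℕ) (l : List ℕ) : Finset V := Finset.univ.filter fun v => enc v ∈ l

theorem mem_TL {l : List ℕ} {v : V} : v ∈ TL enc l ↔ enc v ∈ l := by simp [TL]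

theorem TL_nil : TL enc [] = ∅ := by simp [TL]

theorem S_zero : S enc 0 = ∅ := by simp [S]

/-- valid lists -/
def Vl (M : ℕ) (l : List ℕ) : Prop := l.Nodup ∧ ∀ x ∈ l, M.testBit x

theorem Code.TL_cons (hc : Code G enc nb M) (v : V) (l : List ℕ) :
    TL enc (enc v :: l) = insert v (TL enc l) := by
  ext a; simp [mem_TL, hc.inj.eq_iff]

theorem Code.ind (hc : Code G enc nb M) {Φ : List ℕ → Prop} (h0 : Φ [])
    (h1 : ∀ v l, Vl M l → v ∉ TL enc l → Φ l → Φ (enc v :: l)) : ∀ l, Vl M l → Φ l := by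
  intro l
  induction l with
  | nil => exact fun _ => h0
  | cons x l ih =>
    intro h
    obtain ⟨v, rfl⟩ := hc.sur x (h.2 x List.mem_cons_self)
    have hl : Vl M l := ⟨h.1.of_cons, fun y hy => h.2 y (List.mem_cons_of_mem _ hy)⟩
    exact h1 v l hl (fun e => h.1.notMem (mem_TL.1 e)) (ih hl)

theorem Code.sum_TL (hc : Code G enc nb M) (g : ℕ → ℤ) :
    ∀ l, Vl M l → ∑ v ∈ TL enc l, g (enc v) = sumL g l :=
  hc.ind (by simp [TL_nil, sumL]) fun v l _ hv ih => by
    rw [hc.TL_cons, Finset.sum_insert hv, ih, sumL]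

theorem Code.msk_TL (hc : Code G enc nb M) : ∀ l, Vl M l → msk enc (TL enc l) = mkL l :=
  hc.ind (by simp [TL_nil, msk, mkL]) fun v l _ hv ih => by
    rw [hc.TL_cons, msk, Finset.sum_insert hv, mkL, ← ih, msk]

theorem Code.card_TL (hc : Code G enc nb M) : ∀ l, Vl M l → (TL enc l).card = l.length :=
  hc.ind (by simp [TL_nil]) fun v l _ hv ih => by
    rw [hc.TL_cons, Finset.card_insert_of_notMem hv, ih, List.length_cons]

theorem Code.sum_S (hc : Code G enc nb M) (g : ℕ → ℤ) (f : ℕ) : ∀ L, Sub L M → L < 2 ^ f →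
    ∑ v ∈ S enc L, g (enc v) = sumB g f L := by
  induction f with
  | zero => intro L _ h; rw [show L = 0 by omega, S_zero]; rfl
  | succ f ih =>
    intro L hL h
    rw [sumB]
    by_cases e0 : L = 0
    · rw [e0, S_zero]; rfl
    have e1 := Nat.testBit_log2 e0
    have e2 := xor_log_lt e0 h
    obtain ⟨v, hv⟩ := hc.sur _ (hL _ e1)
    rw [← hv] at e1 e2
    rw [beq_false_of_ne e0, cond_false, ← hv, ← ih _ (hL.xor e1) e2, hc.S_xor e1,
      Finset.add_sum_erase _ (fun v => g (enc v)) (mem_S.2 e1)]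

theorem Lk.left {U t0 A B : Finset V} (h : Lk G U t0 A) {v : V} (hv : v ∈ A)
    (hB : ∀ a, a ∈ B ↔ a ∈ A ∧ G.Adj v a) : Lk G U (insert v t0) B := by
  refine ⟨(h.ok.left hv hB).1, Finset.insert_subset ((h.mem v).1 hv).1 h.sub, fun a => ?_⟩
  rw [hB, h.mem, Finset.mem_insert, not_or, Finset.forall_mem_insert]
  exact ⟨fun e => ⟨e.1.1, ⟨e.2.ne', e.1.2.1⟩, e.2.symm, e.1.2.2⟩,
    fun e => ⟨⟨e.1, e.2.1.2, e.2.2.2⟩, e.2.2.1.symm⟩⟩

theorem Ok.mono {ρ A B : Finset V} (h : Ok G ρ A) (hB : B ⊆ A) : Ok G ρ B :=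
  ⟨h.1, fun a ha => h.2 a (hB ha)⟩


theorem fam_empty {ρ τ : Finset V} (h : Fam G ρ ∅ τ) : τ = ρ :=
  Finset.Subset.antisymm (by simpa using h.2.2) h.2.1

/-- the state of the loop -/
structure St (G : SimpleGraph V) (enc : V → ℕ) (M : ℕ) (U : Finset V) (l : List ℕ) (L : ℕ) : Prop where
  vl : Vl M l
  lk : Lk G U (TL enc l) (S enc L)
  sub : Sub L M

theorem St.mem {U : Finset V} {l : List ℕ} {L : ℕ} (h : St G enc M U l L) : TL enc l ∈ Q G U ∅ :=
  ⟨h.lk.cl, Finset.empty_subset _, h.lk.sub⟩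

theorem Code.st_cons (hc : Code G enc nb M) {U : Finset V} {l : List ℕ} {L : ℕ}
    (h : St G enc M U l L) {v : V} (hv : L.testBit (enc v)) :
    St G enc M U (enc v :: l) (L &&& nb (enc v)) :=
  ⟨⟨List.nodup_cons.2 ⟨fun e => ((h.lk.mem v).1 (mem_S.2 hv)).2.1 (mem_TL.2 e), h.vl.1⟩,
    List.forall_mem_cons.2 ⟨h.sub _ hv, h.vl.2⟩⟩,
    by rw [hc.TL_cons]; exact h.lk.left (mem_S.2 hv) (hc.S_and L v), h.sub.land _⟩

theorem st_nil {U : ℕ} (h : Sub U M) : St G enc M (S enc U) [] U :=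
  ⟨⟨List.nodup_nil, by simp⟩, by rw [TL_nil]; exact lk_empty _, h⟩

theorem Code.allC_sound (hc : Code G enc nb M) {P : List ℕ → ℕ → Bool} {U : Finset V} (f : ℕ) :
    ∀ l L A, St G enc M U l L → Sub A L → allC nb P f l L A = true →
      ∀ τ, Fam G (TL enc l) (S enc A) τ → ∃ l' L', τ = TL enc l' ∧ St G enc M U l' L' ∧ P l' L' = true := by
  induction f with
  | zero => intro l L A _ _ h; exact absurd h (by simp [allC])
  | succ f ih =>
    intro l L A hs hA h τ hτ
    rw [allC] at h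
    by_cases e0 : A = 0
    · subst e0
      rw [S_zero] at hτ
      exact ⟨l, L, fam_empty hτ, hs, h⟩
    have e1 := Nat.testBit_log2 e0
    obtain ⟨v, hv⟩ := hc.sur _ (hs.sub _ (hA _ e1))
    rw [beq_false_of_ne e0, cond_false, ← hv, Bool.and_eq_true] at h
    rw [← hv] at e1
    by_cases e : v ∈ τ
    · exact ih _ _ _ (hc.st_cons hs (hA _ e1)) (hA.and _) h.1 τ
        (by rw [hc.TL_cons]; exact (fam_left (mem_S.2 e1) (hc.S_and A v)).2 ⟨hτ, e⟩)
    · exact ih _ _ _ hs (hA.xor e1) h.2 τ (by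
        rw [hc.S_xor e1]
        exact (fam_right ((hs.lk.mem v).1 (mem_S.2 (hA _ e1))).2.1).2 ⟨hτ, e⟩)

/-- **all cliques of the mask `U`** -/
theorem Code.all (hc : Code G enc nb M) {P : List ℕ → ℕ → Bool} {U f : ℕ} (hU : Sub U M)
    (h : allC nb P f [] U U = true) {τ : Finset V} (hτ : τ ∈ Q G (S enc U) ∅) :
    ∃ l L, τ = TL enc l ∧ St G enc M (S enc U) l L ∧ P l L = true :=
  hc.allC_sound f _ _ _ (st_nil hU) (Sub.refl _) h τ (by rw [TL_nil]; exact (lk_empty _).fam.2 hτ)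

open Classical in
theorem Code.sumC_sound (hc : Code G enc nb M) {g : List ℕ → ℤ} {U : Finset V} {φ : Finset V → ℤ}
    (hφ : ∀ l L, St G enc M U l L → φ (TL enc l) = g l) (f : ℕ) :
    ∀ l L A, St G enc M U l L → Sub A L → A < 2 ^ f →
      ∑ τ with Fam G (TL enc l) (S enc A) τ, φ τ = sumC nb g f l A := by
  have z : ∀ l L, St G enc M U l L → ∑ τ with Fam G (TL enc l) (S enc 0) τ, φ τ = g l := by
    intro l L hs
    rw [S_zero, ← hφ l L hs]
    exact Finset.sum_eq_single_of_mem _ (Finset.mem_filter.2 ⟨Finset.mem_univ _, hs.lk.cl,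
      Finset.Subset.refl _, Finset.subset_union_left⟩)
      fun τ hτ e => absurd (fam_empty (Finset.mem_filter.1 hτ).2) e
  induction f with
  | zero => intro l L A hs _ h; rw [show A = 0 by omega]; exact z l L hs
  | succ f ih =>
    intro l L A hs hA h
    rw [sumC]
    by_cases e0 : A = 0
    · subst e0; exact z l L hs
    have e1 := Nat.testBit_log2 e0
    have e2 := xor_log_lt e0 h
    obtain ⟨v, hv⟩ := hc.sur _ (hs.sub _ (hA _ e1))
    rw [← hv] at e1 e2
    have e3 : A &&& nb (enc v) < 2 ^ f := Sub.lt (fun k hk => by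
      rw [Nat.testBit_and, Bool.and_eq_true] at hk
      have : enc v ≠ k := fun e => G.irrefl ((hc.adj v v).2 (e ▸ hk.2))
      rw [Nat.testBit_xor, Nat.testBit_two_pow_of_ne this, Bool.xor_false]
      exact hk.1) e2
    rw [beq_false_of_ne e0, cond_false, ← hv, ← ih _ _ _ (hc.st_cons hs (hA _ e1)) (hA.and _) e3,
      ← ih _ _ _ hs (hA.xor e1) e2, ← Finset.sum_filter_add_sum_filter_not _ (v ∈ ·),
      Finset.filter_filter, Finset.filter_filter, hc.TL_cons, hc.S_xor e1]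
    congr 2 <;> refine Finset.filter_congr fun τ _ => Iff.symm ?_
    · exact fam_left (mem_S.2 e1) (hc.S_and A v)
    · exact fam_right ((hs.lk.mem v).1 (mem_S.2 (hA _ e1))).2.1

variable {K : Type} [LinearOrder K] {col : V → K} {cn : ℕ → ℕ}

theorem Code.eps_TL (hc : Code G enc nb M) (hcn : ∀ u v, col u < col v ↔ cn (enc u) < cn (enc v))
    (s : V) : ∀ l, Vl M l → eps col s (TL enc l) = sgN cn (enc s) l :=
  hc.ind (by simp [TL_nil, eps, sgN]) fun v l _ hv ih => by
    rw [hc.TL_cons, eps_insert hv, ih, sgN]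
    by_cases e : col v < col s
    · rw [if_pos e, Nat.blt_eq.mpr ((hcn v s).1 e), cond_true, neg_one_mul]
    · rw [if_neg e, Bool.eq_false_iff.2 fun h => e ((hcn v s).2 (Nat.blt_eq.mp h)), cond_false, one_mul]

theorem eps_erase {s : V} {τ : Finset V} (h : s ∈ τ) : eps col s (τ.erase s) = eps col s τ := by
  conv_rhs => rw [← Finset.insert_erase h, eps_insert (Finset.notMem_erase _ _), if_neg (lt_irrefl _),
    one_mul]

open Classical in
/-- the homogeneous function on the cliques of `U` with `n` vertices given by `an` -/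
noncomputable def gr (G : SimpleGraph V) (enc : V → ℕ) (U : Finset V) (n : ℕ) (an : ℕ → ℤ)
    (τ : Finset V) : ℤ := if τ ∈ Q G U ∅ ∧ τ.card = n then an (msk enc τ) else 0

theorem gr_sup {U : Finset V} {n : ℕ} {an : ℕ → ℤ} (τ : Finset V) (h : gr G enc U n an τ ≠ 0) :
    τ ∈ Q G U ∅ ∧ τ.card = n := by_contra fun e => h (if_neg e)

theorem gr_of_mem {U τ : Finset V} (h : τ ∈ Q G U ∅) (n : ℕ) (an : ℕ → ℤ) :
    gr G enc U n an τ = if τ.card = n then an (msk enc τ) else 0 := by simp [gr, h]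

theorem Code.gr_TL (hc : Code G enc nb M) {U : Finset V} {l : List ℕ} (hl : Vl M l)
    (h : TL enc l ∈ Q G U ∅) (n : ℕ) (an : ℕ → ℤ) : gr G enc U n an (TL enc l) = gN n an l := by
  rw [gr_of_mem h, hc.card_TL l hl, hc.msk_TL l hl, gN]
  by_cases e : l.length = n
  · simp [e]
  · rw [if_neg e, beq_false_of_ne e, cond_false]

/-- the same as a cochain -/
noncomputable def co (G : SimpleGraph V) (enc : V → ℕ) (U : Finset V) (n : ℕ) (an : ℕ → ℤ) :
    Finset V →₀ ℤ := cut (Q G U ∅) (gr G enc U n an)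

theorem co_mem (U : Finset V) (n : ℕ) (an : ℕ → ℤ) : co G enc U n an ∈ Sp (Q G U ∅) := cut_mem _ _

theorem co_apply (U : Finset V) (n : ℕ) (an : ℕ → ℤ) (τ : Finset V) :
    co G enc U n an τ = gr G enc U n an τ := by
  by_cases e : τ ∈ Q G U ∅
  · exact cut_of_mem _ e
  · rw [by_contra fun h => e (mem_Sp.1 (co_mem U n an) τ h), by_contra fun h => e (gr_sup τ h).1]

/-- **cocycle test** -/
theorem Code.dq_co (hc : Code G enc nb M) (hcn : ∀ u v, col u < col v ↔ cn (enc u) < cn (enc v))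
    {U n : ℕ} {an : ℕ → ℤ}
    (h : ∀ τ ∈ Q G (S enc U) ∅, ∃ l L, τ = TL enc l ∧ St G enc M (S enc U) l L ∧ deN cn n an l = 0) :
    dq G col (S enc U) (co G enc (S enc U) n an) = 0 := by
  refine (lk_empty _).cy_iff.1 fun τ hτ => ?_
  obtain ⟨l, L, rfl, hs, e⟩ := h τ ((lk_empty _).fam.1 hτ)
  rw [← e, de_apply, Finset.sdiff_empty, deN, ← hc.card_TL l hs.vl]
  have k : ∀ s ∈ TL enc l, gr G enc (S enc U) n an ((TL enc l).erase s) =
      if (TL enc l).card = n + 1 then an (mkL l - 2 ^ enc s) else 0 := fun s h' => by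
    have h1 := Finset.card_erase_add_one h'
    have h2 : msk enc ((TL enc l).erase s) = mkL l - 2 ^ enc s := by
      rw [← hc.msk_TL l hs.vl, msk, msk, ← Finset.add_sum_erase _ _ h', Nat.add_sub_cancel_left]
    rw [gr_of_mem ((lk_empty _).fam.1 (hτ.erase (Finset.notMem_empty s))), h2, ← h1]
    simp
  by_cases e : (TL enc l).card = n + 1
  · rw [beq_iff_eq.2 e, cond_true, ← hc.sum_TL _ l hs.vl]
    exact Finset.sum_congr rfl fun s h' => by rw [k s h', if_pos e, eps_erase h', hc.eps_TL hcn s l hs.vl]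
  · rw [beq_false_of_ne e, cond_false]
    exact Finset.sum_eq_zero fun s h' => by rw [k s h', if_neg e, mul_zero]

theorem Lk.pe_dq {U t A : Finset V} (h : Lk G U t A) (z : Finset V → ℤ) :
    pe z (dq G col U (Finsupp.single t 1)) = ∑ s ∈ A, eps col s t * z (insert s t) := by
  classical
  rw [dq_single, one_smul, cof, map_sum]
  refine Finset.sum_congr (Finset.ext fun s => ?_) fun s _ => by
    rw [Finsupp.linearCombination_single, smul_eq_mul]
  rw [Finset.mem_filter, h.mem, Finset.coe_insert]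
  refine and_congr_right fun _ => and_congr_right fun e => ?_
  exact ⟨fun c r hr => c (Set.mem_insert _ _) (Set.mem_insert_of_mem _ hr) fun e' => e (e' ▸ hr),
    fun c => h.cl.insert fun b hb _ => c b hb⟩

/-- **Stokes test** -/
theorem Code.pe_dq (hc : Code G enc nb M) (hcn : ∀ u v, col u < col v ↔ cn (enc u) < cn (enc v))
    {U : Finset V} {l : List ℕ} {L f : ℕ} (hs : St G enc M U l L) (hM : M < 2 ^ f) (n : ℕ)
    (zn : ℕ → ℤ) :
    pe (gr G enc U n zn) (dq G col U (Finsupp.single (TL enc l) 1)) = bdN cn f n zn l L := by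
  rw [hs.lk.pe_dq, bdN]
  have k : ∀ s ∈ S enc L, gr G enc U n zn (insert s (TL enc l)) =
      bif l.length + 1 == n then zn (2 ^ enc s + mkL l) else 0 := fun s h' => by
    have := hc.st_cons hs (mem_S.1 h')
    rw [← hc.TL_cons, hc.gr_TL this.vl this.mem]; rfl
  cases e : l.length + 1 == n
  · exact Finset.sum_eq_zero fun s h' => by rw [k s h', e, cond_false, mul_zero]
  · rw [cond_true, ← hc.sum_S _ f L hs.sub (hs.sub.lt hM)]
    exact Finset.sum_congr rfl fun s h' => by rw [k s h', e, cond_true, hc.eps_TL hcn s l hs.vl]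

/-- **periods** -/
theorem Code.pe_co (hc : Code G enc nb M) {T f : ℕ} (hT : Sub T M) (hf : T < 2 ^ f) {U : Finset V}
    (hU : S enc T ⊆ U) (n k : ℕ) (zn an : ℕ → ℤ) :
    pe (gr G enc (S enc T) n zn) (co G enc U k an) =
      sumC nb (fun l => gN k an l * gN n zn l) f [] T := by
  classical
  rw [← hc.sumC_sound (U := S enc T) (φ := fun τ => gr G enc U k an τ * gr G enc (S enc T) n zn τ)
    (fun l L hs => by
      rw [hc.gr_TL hs.vl hs.mem, hc.gr_TL hs.vl ⟨hs.mem.1, hs.mem.2.1, hs.mem.2.2.trans hU⟩])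
    f _ _ _ (st_nil hT) (Sub.refl _) hf, Finsupp.linearCombination_apply,
    Finsupp.sum_fintype _ _ (by simp), Finset.sum_filter]
  refine Finset.sum_congr rfl fun τ _ => ?_
  rw [co_apply, smul_eq_mul, TL_nil]
  split_ifs with e
  · rfl
  · rw [by_contra fun h => e ((lk_empty _).fam.2 (gr_sup (n := n) (an := zn) τ h).1), mul_zero]

/-- every clique lies in a clique with empty link -/
theorem exists_max {U t0 : Finset V} (h : t0 ∈ Q G U ∅) : ∃ t ∈ Q G U t0, ∀ A, Lk G U t A → A = ∅ := by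
  classical
  obtain ⟨t, ht, hm⟩ := (Finset.univ.filter (· ∈ Q G U t0)).exists_max_image Finset.card
    ⟨t0, Finset.mem_filter.2 ⟨Finset.mem_univ _, h.1, Finset.Subset.refl _, h.2.2⟩⟩
  have ht' := (Finset.mem_filter.1 ht).2
  refine ⟨t, ht', fun A hA => Finset.eq_empty_of_forall_notMem fun a ha => ?_⟩
  have h1 := hA.left ha (B := A.filter (G.Adj a)) fun _ => Finset.mem_filter
  have := hm (insert a t) (Finset.mem_filter.2 ⟨Finset.mem_univ _, h1.cl,
    ht'.2.1.trans (Finset.subset_insert _ _), h1.sub⟩)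
  rw [Finset.card_insert_of_notMem ((hA.mem a).1 ha).2.1] at this
  omega

theorem Code.eq_zero (hc : Code G enc nb M) {L : ℕ} (hL : Sub L M) (h : S enc L = ∅) : L = 0 := by
  by_contra e
  obtain ⟨v, hv⟩ := hc.sur _ (hL _ (Nat.testBit_log2 e))
  exact Finset.notMem_empty v (h ▸ mem_S.2 (hv ▸ Nat.testBit_log2 e))

end Crest.Agent.N255.Da
private theorem rz_800e5fab1f : type_of% @_root_.Crest.Agent.N255.Da.allC.eq_def := @_root_.Crest.Agent.N255.Da.allC.eq_def -- L35
private theorem rz_89aaf0e5b6 : type_of% @_root_.Crest.Agent.N255.Da.allC.eq_1 := @_root_.Crest.Agent.N255.Da.allC.eq_1 -- L35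
private theorem rz_cabdb46f34 : type_of% @_root_.Crest.Agent.N255.Da.mkL.eq_def := @_root_.Crest.Agent.N255.Da.mkL.eq_def -- L15
private theorem rz_5a2f24f74a : type_of% @_root_.Crest.Agent.N255.Da.mkL.eq_1 := @_root_.Crest.Agent.N255.Da.mkL.eq_1 -- L15
private theorem rz_85125a1e96 : type_of% @_root_.Crest.Agent.N255.Da.sgN.eq_def := @_root_.Crest.Agent.N255.Da.sgN.eq_def -- L20
private theorem rz_a9b19ed85c : type_of% @_root_.Crest.Agent.N255.Da.sgN.eq_1 := @_root_.Crest.Agent.N255.Da.sgN.eq_1 -- L20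
private theorem rz_7ee3e425b4 : type_of% @_root_.Crest.Agent.N255.Da.sumB.eq_def := @_root_.Crest.Agent.N255.Da.sumB.eq_def -- L30
private theorem rz_6de818d04c : type_of% @_root_.Crest.Agent.N255.Da.sumB.eq_1 := @_root_.Crest.Agent.N255.Da.sumB.eq_1 -- L30
private theorem rz_159e5be413 : type_of% @_root_.Crest.Agent.N255.Da.sumC.eq_def := @_root_.Crest.Agent.N255.Da.sumC.eq_def -- L42
private theorem rz_751ef65d4d : type_of% @_root_.Crest.Agent.N255.Da.sumC.eq_1 := @_root_.Crest.Agent.N255.Da.sumC.eq_1 -- L42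
private theorem rz_93a01910a9 : type_of% @_root_.Crest.Agent.N255.Da.sumL.eq_def := @_root_.Crest.Agent.N255.Da.sumL.eq_def -- L25
private theorem rz_aa3ca17cab : type_of% @_root_.Crest.Agent.N255.Da.sumL.eq_1 := @_root_.Crest.Agent.N255.Da.sumL.eq_1 -- L25
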